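import Vale.Agent.P297.H424.Z2.Iface

/-!
The lines over `y` are not parallel to the planes `p ± r = const`, and for all nodes with one
possible exception the discriminant of the branch quartic on the plane through the line and the
node has degree six.
-/

set_option linter.unusedSectionVars false
set_option linter.unusedVariables false

open Polynomial

namespace Vale.Agent.P297.H430.Z2

open Vale.Agent.P297 Vale.Agent.P297.Z2 Vale.Agent.P297.Gen Vale.Agent.P297.H72
open Vale.Agent.P297.H160.Z2Irr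

section raw

variable {R : Type*} [CommRing R] (D : Dat R)

/-- The coefficient of `z ^ 4` on a line of the plane. -/
theorem Bq_c4 (l p0 p1 r0 r1 : R) :
    D.Bq l (p0 + p1 * 2) (r0 + r1 * 2) + D.Bq l (p0 + p1 * (-2)) (r0 + r1 * (-2)) -
      4 * D.Bq l (p0 + p1) (r0 + r1) - 4 * D.Bq l (p0 - p1) (r0 - r1) + 6 * D.Bq l p0 r0 =
      24 * (p1 ^ 2 - r1 ^ 2) ^ 2 := by
  unfold Dat.Bq Dat.K Dat.J0 Dat.J1 Dat.N Dat.E Dat.F
  ring

/-- The coefficient of `z ^ 3` on a line of direction `(p1, -p1)`. -/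
theorem Bq_c3_neg (l p0 p1 r0 : R) :
    D.Bq l (p0 + p1 * 2) (r0 + -p1 * 2) - D.Bq l (p0 + p1 * (-2)) (r0 + -p1 * (-2)) -
      2 * D.Bq l (p0 + p1) (r0 + -p1) + 2 * D.Bq l (p0 - p1) (r0 - -p1) =
      48 * (p1 ^ 3 * (D.a - D.c)) := by
  unfold Dat.Bq Dat.K Dat.J0 Dat.J1 Dat.N Dat.E Dat.F
  ring

/-- The coefficient of `z ^ 3` on a line of direction `(p1, p1)`. -/
theorem Bq_c3_pos (l p0 p1 r0 : R) :
    D.Bq l (p0 + p1 * 2) (r0 + p1 * 2) - D.Bq l (p0 + p1 * (-2)) (r0 + p1 * (-2)) -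
      2 * D.Bq l (p0 + p1) (r0 + p1) + 2 * D.Bq l (p0 - p1) (r0 - p1) =
      48 * (p1 ^ 3 * (D.a + D.c)) := by
  unfold Dat.Bq Dat.K Dat.J0 Dat.J1 Dat.N Dat.E Dat.F
  ring

end raw

section field

variable {N : Type} [Field N] [Algebra ℂ N] {P : Par}
  {l y p0 p1 r0 r1 s0 s1 s2 : N}

theorem yline_eval (h : YLine P l y p0 p1 r0 r1 s0 s1 s2) (z : N) :
    tB P l (p0 + p1 * z) (r0 + r1 * z) y = (s0 + s1 * z + s2 * z ^ 2) ^ 2 := by
  have h1 := congrArg (Polynomial.aeval z : N[X] →ₐ[N] N) h.eq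
  have h2 : (((Polynomial.aeval z : N[X] →ₐ[N] N).restrictScalars ℂ) : N[X] →ₐ[ℂ] N)
      (tB P (C l : N[X]) (C p0 + C p1 * X) (C r0 + C r1 * X) (C y)) =
      tB P l (p0 + p1 * z) (r0 + r1 * z) y := by
    rw [map_tB]
    simp only [AlgHom.coe_restrictScalars', map_add, map_mul, aeval_C, aeval_X,
      Algebra.algebraMap_self, RingHom.id_apply]
  rw [← h2]
  refine Eq.trans h1 ?_
  simp only [map_pow, map_add, map_mul, aeval_C, aeval_X, Algebra.algebraMap_self,
    RingHom.id_apply]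

/-- The leading coefficient of `Σ` on a line over `y`. -/
theorem yline_s2_sq (h : YLine P l y p0 p1 r0 r1 s0 s1 s2) :
    s2 ^ 2 = (p1 ^ 2 - r1 ^ 2) ^ 2 := by
  have : CharZero N := charZero_of_injective_algebraMap (algebraMap ℂ N).injective
  have e2 := yline_eval h 2
  have em2 := yline_eval h (-2)
  have e1 := yline_eval h 1
  have em1 := yline_eval h (-1)
  have e0 := yline_eval h 0
  have h4 := Bq_c4 (dat P y) l p0 p1 r0 r1
  unfold tB at e2 em2 e1 em1 e0
  rw [show p0 + p1 * 1 = p0 + p1 by ring, show r0 + r1 * 1 = r0 + r1 by ring] at e1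
  rw [show p0 + p1 * -1 = p0 - p1 by ring, show r0 + r1 * -1 = r0 - r1 by ring] at em1
  rw [show p0 + p1 * 0 = p0 by ring, show r0 + r1 * 0 = r0 by ring] at e0
  have h5 : (24 : N) ≠ 0 := by norm_num
  apply mul_left_cancel₀ h5
  linear_combination h4 - e2 - em2 + 4 * e1 + 4 * em1 - 6 * e0

/-- **The lines over `y` are not parallel to the planes `p ± r = const`.** -/
theorem yline_sq_ne (hQ : P.Q0 ≠ P.Q1) (hy : Transcendental ℂ y)
    (h : YLine P l y p0 p1 r0 r1 s0 s1 s2) : p1 ^ 2 ≠ r1 ^ 2 := by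
  have : CharZero N := charZero_of_injective_algebraMap (algebraMap ℂ N).injective
  intro h0
  have hs : s2 = 0 := by
    have h1 := yline_s2_sq h
    rw [h0, sub_self] at h1
    exact pow_eq_zero_iff (two_ne_zero) |>.1 (by rw [h1]; ring)
  have e2 := yline_eval h 2
  have em2 := yline_eval h (-2)
  have e1 := yline_eval h 1
  have em1 := yline_eval h (-1)
  unfold tB at e2 em2 e1 em1
  rw [show p0 + p1 * 1 = p0 + p1 by ring, show r0 + r1 * 1 = r0 + r1 by ring] at e1
  rw [show p0 + p1 * -1 = p0 - p1 by ring, show r0 + r1 * -1 = r0 - r1 by ring] at em1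
  rw [hs] at e2 em2 e1 em1
  have h48 : (48 : N) ≠ 0 := by norm_num
  have hp1 : p1 ≠ 0 := by
    intro hp
    rw [hp] at h0
    have hr : r1 = 0 := pow_eq_zero_iff (two_ne_zero) |>.1 (by rw [← h0]; ring)
    rcases h.ne with h1 | h1
    · exact h1 hp
    · exact h1 hr
  rcases sq_eq_sq_iff_eq_or_eq_neg.1 h0.symm with hr | hr
  · have h3 := Bq_c3_pos (dat P y) l p0 p1 r0
    rw [hr] at e2 em2 e1 em1
    have h4 : (48 : N) * (p1 ^ 3 * ((dat P y).a + (dat P y).c)) = 0 := by
      linear_combination -h3 + e2 - em2 - 2 * e1 + 2 * em1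
    have h5 : (dat P y).a + (dat P y).c = 0 := by
      rcases mul_eq_zero.1 h4 with h6 | h6
      · exact absurd h6 h48
      · exact (mul_eq_zero.1 h6).resolve_left (pow_ne_zero _ hp1)
    apply hy
    have h6 : (4 : N) * y = algebraMap ℂ N (-(P.Q0 + P.Q1)) := by
      rw [map_neg, map_add]
      unfold dat fa fc at h5
      linear_combination h5
    have h7 : y = algebraMap ℂ N (-(P.Q0 + P.Q1) / 4) := by
      rw [map_div₀, ← h6, map_ofNat]
      have h8 : (4 : N) ≠ 0 := by norm_num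
      field_simp
    rw [h7]
    exact isAlgebraic_algebraMap _
  · have h3 := Bq_c3_neg (dat P y) l p0 p1 r0
    rw [hr] at e2 em2 e1 em1
    have h4 : (48 : N) * (p1 ^ 3 * ((dat P y).a - (dat P y).c)) = 0 := by
      linear_combination -h3 + e2 - em2 - 2 * e1 + 2 * em1
    have h5 : (dat P y).a - (dat P y).c = 0 := by
      rcases mul_eq_zero.1 h4 with h6 | h6
      · exact absurd h6 h48
      · exact (mul_eq_zero.1 h6).resolve_left (pow_ne_zero _ hp1)
    apply hQ
    apply (algebraMap ℂ N).injective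
    unfold dat fa fc at h5
    linear_combination h5

/-- The quadratic form of the tangents from a node at infinity to the conic at infinity. -/
def dg6 (l al be p1 r1 : N) : N :=
  (1 - 2 * l) * (p1 - r1) ^ 2 + 2 * (al + be) * (p1 ^ 2 - r1 ^ 2) + (p1 + r1) ^ 2

/-- The discriminant of the leading forms. -/
theorem dg6_eq {l al be : N} (h : be - al = 1 - l) (p1 r1 : N) :
    ((p1 - r1) * (al + be) + (p1 + r1)) ^ 2 - (l ^ 2 + 4 * al * be) * (p1 - r1) ^ 2 =
      dg6 l al be p1 r1 := by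
  unfold dg6
  have h1 : l = 1 - be + al := by linear_combination h
  subst h1
  ring

theorem dg6_four {l al be : N} (h : be - al = 1 - l) (p1 r1 : N) :
    dg6 l al be p1 r1 = 4 * (be * p1 ^ 2 + l * (p1 * r1) - al * r1 ^ 2) := by
  unfold dg6
  have h1 : l = 1 - be + al := by linear_combination h
  subst h1
  ring

/-- **At most one of the nodes is bad at infinity.** -/
theorem dg6_ne_or {al be al' be' : N} (h : be - al = 1 - l) (h' : be' - al' = 1 - l)
    (hne : al ≠ al') (hp : p1 ^ 2 ≠ r1 ^ 2) :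
    dg6 l al be p1 r1 ≠ 0 ∨ dg6 l al' be' p1 r1 ≠ 0 := by
  have : CharZero N := charZero_of_injective_algebraMap (algebraMap ℂ N).injective
  by_contra hcon
  push Not at hcon
  obtain ⟨h1, h2⟩ := hcon
  unfold dg6 at h1 h2
  have h3 : (4 : N) * ((al - al') * (p1 ^ 2 - r1 ^ 2)) = 0 := by
    linear_combination h1 - h2 - 2 * (p1 ^ 2 - r1 ^ 2) * (h - h')
  have h4 : (4 : N) ≠ 0 := by norm_num
  rcases mul_eq_zero.1 h3 with h5 | h5
  · exact h4 h5
  · rcases mul_eq_zero.1 h5 with h6 | h6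
    · exact hne (sub_eq_zero.1 h6)
    · exact hp (sub_eq_zero.1 h6)

end field

end Vale.Agent.P297.H430.Z2
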