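import Vale.Agent.P297.H637.Z2.Fam6
import Vale.Agent.P297.H430.Z2.Deg6
import Vale.Agent.P297.H424.Z2.Nodes

/-!
The two-sections over the conic: `Δ` does not vanish over the line at infinity of the plane.
-/

set_option linter.unusedSectionVars false
set_option linter.unusedVariables false

open Polynomial

namespace Vale.Agent.P297.H430.Z2

open Vale.Agent.P297 Vale.Agent.P297.Z2 Vale.Agent.P297.Gen Vale.Agent.P297.H72
open Vale.Agent.P297.H160.Z2Irr

section ring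

variable {R : Type} [CommRing R] [Algebra ℂ R] (P : Par) (D : FP R)

theorem st_of_dl {u : R} (hu : D.dl u 1 = 0) : D.st u 1 = u * D.ht u 1 := by
  unfold FP.dl at hu
  unfold FP.st FP.ht
  linear_combination D.ss * hu

/-- `hY` over the line at infinity of the plane. -/
theorem hY_of_dl {u : R} (hu : D.dl u 1 = 0) (Y : R) : D.hY P u 1 Y =
    -2 * D.ht u 1 ^ 3 * (D.k1 + D.k2) * (2 * (D.k1 ^ 2 + D.k2 ^ 2) - D.l * (D.k1 - D.k2) ^ 2 +
      (D.k1 - D.k2) * (u + 2 * D.al * D.k1 + 2 * D.be * D.k2)) * Y +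
    (-(2 * (D.k2 * D.ht u 1) ^ 2 * ((algebraMap ℂ R P.Q0 - D.l * algebraMap ℂ R P.u) *
        (D.k1 * D.ht u 1) + (algebraMap ℂ R P.Q1 - D.l * algebraMap ℂ R P.v) *
        (D.k2 * D.ht u 1) - D.wt u 1)) -
      2 * (D.k1 * D.ht u 1) ^ 2 * ((algebraMap ℂ R P.Q0 - D.l * algebraMap ℂ R P.u) *
        (D.k1 * D.ht u 1) + (algebraMap ℂ R P.Q1 - D.l * algebraMap ℂ R P.v) *
        (D.k2 * D.ht u 1) + D.wt u 1) -
      4 * D.l * (D.k1 * D.ht u 1) * (D.k2 * D.ht u 1) *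
        (algebraMap ℂ R P.v * (D.k1 * D.ht u 1) + algebraMap ℂ R P.u * (D.k2 * D.ht u 1))) := by
  have hs := st_of_dl D hu
  unfold FP.hY FP.S1 FP.pt FP.rt
  rw [hs, hu]
  generalize D.wt u 1 = w
  generalize D.ht u 1 = h
  unfold tCb Dat.CF Dat.kh Dat.Eh Dat.Fh dat fa fc fU fV fe fm
  ring

/-- **`Δ` over the line at infinity of the plane.** -/
theorem dlt_of_dl {u : R} (hu : D.dl u 1 = 0) : D.dlt P u 1 =
    -2 * D.ht u 1 ^ 3 * (D.k1 + D.k2) * (2 * (D.k1 ^ 2 + D.k2 ^ 2) - D.l * (D.k1 - D.k2) ^ 2 +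
      (D.k1 - D.k2) * (u + 2 * D.al * D.k1 + 2 * D.be * D.k2)) := by
  have h1 : (D.map C).dl (C u) 1 = (0 : R[X]) := by
    have h2 : (D.map C).dl (C u) 1 = C (D.dl u 1) := by
      simp only [FP.dl, FP.map, C_sub, C_mul, C_pow, C_1]
    rw [h2, hu, C_0]
  have h3 := hY_of_dl P (D.map C) h1 X
  unfold FP.dlt FP.HP
  rw [C_1, h3]
  have h4 : (D.map C).ht (C u) 1 = C (D.ht u 1) := by
    simp only [FP.ht, FP.map, C_sub, C_mul, C_1, map_ofNat]
  have h5 : (D.map C).wt (C u) 1 = C (D.wt u 1) := by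
    simp only [FP.wt, FP.ht, FP.dl, FP.st, FP.map, C_add, C_sub, C_neg, C_mul, C_pow, C_1,
      map_ofNat]
  rw [h4, h5]
  simp only [FP.map]
  have h6 : ∀ z : ℂ, algebraMap ℂ R[X] z = C (algebraMap ℂ R z) := fun z => rfl
  simp only [h6, ← C_mul, ← C_add, ← C_sub, ← C_neg, ← C_pow, ← C_ofNat]
  rw [coeff_add, coeff_C_mul, coeff_X_one, coeff_C_succ, mul_one, add_zero]

end ring

section field

variable {N : Type} [Field N] [Algebra ℂ N] {P : Par}

/-- **(N2)** `Δ` does not vanish over the line at infinity of the plane. -/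
theorem dlt_ne (D : FP N) (hbe : D.be - D.al = 1 - D.l)
    (hb : D.b = (D.l ^ 2 + 4 * D.al * D.be) * (D.k1 + D.k2) ^ 2) (hk : D.k1 ^ 2 ≠ D.k2 ^ 2)
    (h6 : dg6 D.l D.al D.be D.k1 D.k2 ≠ 0) (hc : D.a ^ 2 ≠ 4 * D.ss ^ 2 * D.b) {u : N}
    (hu : D.dl u 1 = 0) : D.dlt P u 1 ≠ 0 := by
  have : CharZero N := charZero_of_injective_algebraMap (algebraMap ℂ N).injective
  rw [dlt_of_dl P D hu]
  have hu2 : u ^ 2 = D.b := by
    unfold FP.dl at hu
    linear_combination hu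
  have hh : D.ht u 1 ≠ 0 := by
    intro h0
    apply hc
    unfold FP.ht at h0
    linear_combination (D.a + 2 * D.ss * u) * h0 + 4 * D.ss ^ 2 * hu2
  have hk' : D.k1 + D.k2 ≠ 0 := by
    intro h0
    apply hk
    linear_combination (D.k1 - D.k2) * h0
  have hG : 2 * (D.k1 ^ 2 + D.k2 ^ 2) - D.l * (D.k1 - D.k2) ^ 2 +
      (D.k1 - D.k2) * (u + 2 * D.al * D.k1 + 2 * D.be * D.k2) ≠ 0 := by
    intro h0
    have e6 := dg6_eq hbe D.k1 D.k2
    have h1 : (D.k1 + D.k2) ^ 2 * dg6 D.l D.al D.be D.k1 D.k2 = 0 := by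
      rw [← e6]
      have h2 : 2 * (D.k1 ^ 2 + D.k2 ^ 2) - D.l * (D.k1 - D.k2) ^ 2 +
          2 * (D.k1 - D.k2) * (D.al * D.k1 + D.be * D.k2) =
          (D.k1 + D.k2) * ((D.k1 + D.k2) + (D.al + D.be) * (D.k1 - D.k2)) := by
        have h3 : D.l = 1 - D.be + D.al := by linear_combination hbe
        rw [h3]
        ring
      have h4 : u ^ 2 = (D.l ^ 2 + 4 * D.al * D.be) * (D.k1 + D.k2) ^ 2 := hu2.trans hb
      have h5 : (D.k1 + D.k2) * ((D.k1 + D.k2) + (D.al + D.be) * (D.k1 - D.k2)) =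
          -((D.k1 - D.k2) * u) := by
        rw [← h2]
        linear_combination h0
      linear_combination ((D.k1 + D.k2) * ((D.k1 + D.k2) + (D.al + D.be) * (D.k1 - D.k2)) -
        (D.k1 - D.k2) * u) * h5 + (D.k1 - D.k2) ^ 2 * h4
    rcases mul_eq_zero.1 h1 with h2 | h2
    · exact pow_ne_zero 2 hk' h2
    · exact h6 h2
  have h2 : (-2 : N) ≠ 0 := by norm_num
  exact mul_ne_zero (mul_ne_zero (mul_ne_zero h2 (pow_ne_zero 3 hh)) hk') hG

/-- `A2` has degree two. -/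
theorem lam_ne (h : NC P) {l al be : N} (hl : Transcendental ℂ l) (hn : IsNode P l al be) :
    l ^ 2 + 4 * al * be ≠ 0 := by
  intro h0
  have h1 := tC_of_isNode hn
  have ht := root_tr h hl h1
  obtain ⟨e1, e2⟩ := be_of_isNode h hl hn
  set t := al / be with ht0
  have hD := tD_ne h ht
  have h3 := l_eq h ht h1
  rw [e1, e2, h3] at h0
  have h4 : tg P t ^ 2 + 4 * t * tq P t ^ 2 = 0 := by
    unfold nal nbe at h0
    field_simp at h0
    linear_combination h0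
  have h5 : aeval t (gp P ^ 2 + 4 * X * (tq P (X : ℂ[X])) ^ 2) = 0 := by
    rw [map_add, map_mul, map_mul, map_pow, map_pow, aeval_gp, aeval_X, map_ofNat, map_tq, aeval_X]
    exact h4
  have h6 : gp P ^ 2 + 4 * X * (tq P (X : ℂ[X])) ^ 2 = 0 := by
    by_contra hne
    exact tr_aeval_ne ht hne h5
  have h7 : tq P (X : ℂ[X]) ≠ 0 := by
    intro h8
    apply tq_ne h ht
    have h9 := congrArg (aeval t) h8
    rwa [map_tq, aeval_X, map_zero] at h9
  have h10 : gp P ^ 2 = C (-4 : ℂ) * X * (tq P (X : ℂ[X])) ^ 2 := by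
    rw [C_neg, show (C (4 : ℂ) : ℂ[X]) = 4 from map_ofNat C 4]
    linear_combination h6
  have hr : C (-4 : ℂ) * X * (tq P (X : ℂ[X])) ^ 2 ≠ 0 :=
    mul_ne_zero (mul_ne_zero (C_ne_zero.2 (by norm_num)) X_ne_zero) (pow_ne_zero 2 h7)
  have h11 := congrArg natDegree h10
  rw [natDegree_pow, natDegree_mul (mul_ne_zero (C_ne_zero.2 (by norm_num)) X_ne_zero)
    (pow_ne_zero 2 h7), natDegree_C_mul (by norm_num), natDegree_X, natDegree_pow] at h11
  omega

/-- `b ≠ 0`. -/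
theorem b_ne (h : NC P) (D : FP N) (hl : Transcendental ℂ D.l)
    (hn : IsNode P D.l D.al D.be) (hb : D.b = (D.l ^ 2 + 4 * D.al * D.be) * (D.k1 + D.k2) ^ 2)
    (hk : D.k1 ^ 2 ≠ D.k2 ^ 2) : D.b ≠ 0 := by
  rw [hb]
  refine mul_ne_zero (lam_ne h hl hn) (pow_ne_zero 2 ?_)
  intro h0
  apply hk
  linear_combination (D.k1 - D.k2) * h0

end field

end Vale.Agent.P297.H430.Z2
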